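import Vale.Agent.P218CP.HM
import Vale.Agent.P218HC.OW

/-! # The glued functions and the core fields for the solutions on the ends -/

open Set Filter Metric Topology Complex
open scoped ContDiff Matrix

noncomputable section

set_option linter.unusedSectionVars false
set_option linter.unusedVariables false

namespace Vale.Agent.P218CP

open Vale.Agent.P218CO Vale.Agent.P218VA Vale.Agent.P218MP Vale.Agent.P272.K.LIN
open Vale.Agent.P218HB (Cst Lp HF HG HM)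
open Vale.Agent.P218SQ (Pt ofReal)
open Vale.Agent.P218SQ.D7 (Red)
open Vale.Agent.P218GA (E3 Model cx mat)
open Vale.Agent.P218ST (CoreHF)
open Vale.Agent.P218A1 (Pack)
open Vale.Agent.P218TP (GG)

variable {ι τ M : Type} [Fintype ι] [Fintype τ] [TopologicalSpace M] [ChartedSpace E2 M]
  [T2Space M] [RSm E2 M] {𝒞 : Cov E2 M} {c : Cst}

lemma reg_of_coreK {σ : Type} {𝓔 : Ends σ M} {b : ℝ} {x : M} (hx : x ∈ coreK 𝓔.φ b) :
    x ∈ 𝓔.reg := fun j h => by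
  have h1 := hx j (h ▸ (𝓔.φ j).map_target (Ends.zero_mem j))
  rw [h, (𝓔.φ j).right_inv (Ends.zero_mem j), norm_zero] at h1
  exact absurd h1 (not_le.2 (Real.exp_pos _))

/-- **The glued functions.** -/
theorem hm_glue {σ : Type} [Fintype σ] {𝓔 : Ends σ M} {a b : ℝ} (ha : 𝓔.w0 < a)
    {v : (ι → ℝ) → Pt ι τ → VC 𝒞} {vb : Pt ι τ → VC 𝒞} (hv : HV c v vb)
    {μ : (ι → ℝ) → Pt ι τ → σ → ℝ × ℝ → ℂ} (per : ∀ W z, c.Ok W z → ∀ j, Per (μ W z j))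
    (hμ : ∀ j (p : ℝ × ℝ), a + 3 ≤ p.1 → p.1 ≤ b → ∃ μb,
      HG c (1, 0) (0, 1) p (fun W z => μ W z j) μb ∧ ∀ᶠ q in 𝓝 p, μb 0 q = 0) :
    ∀ x ∈ coreK 𝓔.φ b, ∃ Ub : Pt ι τ → M → ℂ,
      HM c x (fun W z => 𝓔.glue a (fnC (v W z)) (μ W z)) Ub ∧ Ub 0 =ᶠ[𝓝 x] 0 := by
  intro x hx
  rcases P218OP.reg_cases (reg_of_coreK hx) (a + 3) with h | ⟨j, p, hp, h, rfl⟩
  · have h4 := (Ends.isOpen_below (show 𝓔.w0 < a + 3 by linarith)).mem_nhds h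
    refine ⟨_, (hm_fnC hv.hb hv.lp x).congr (.of_forall fun _ => eventually_of_mem h4
      fun y hy W z _ => Ends.glue_below hy) (.of_forall fun _ => .of_forall fun _ _ _ => rfl),
      .of_forall fun y => ?_⟩
    simp [hv.zero]
  · have hb : p.1 ≤ b := by
      have h1 := hx j (Ends.Y_mem j hp)
      rwa [Ends.φ_Y j hp, P218MP.norm_pol, Real.exp_le_exp, neg_le_neg_iff] at h1
    obtain ⟨μb, h1, h2⟩ := hμ j p h hb
    have h3 := Ends.pol_mem j hp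
    have h4 := (hm_fnC hv.hb hv.lp _).pull (d1 := ((1, 0) : ℝ × ℝ)) (d2 := (0, 1)) (𝓔.mem j) h3
      P218MP.contDiff_pol.contDiffAt
    have h5 : ContDiffAt ℝ 2 (fun q : ℝ × ℝ =>
        ((((1 - st (a + 5) q.1 : ℝ) : ℂ), ((st (a + 3) q.1 : ℝ) : ℂ)) : ℂ × ℂ)) p :=
      (ofRealCLM.contDiff.comp ((contDiff_st2' _).comp contDiff_fst)).contDiffAt.prodMk
        (ofRealCLM.contDiff.comp ((contDiff_st2 _).comp contDiff_fst)).contDiffAt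
    have h6 := (h4.prod h1).comp₂ h5
      (Θ := fun x : (ℂ × ℂ) × ℂ × ℂ => x.1.1 * x.2.1 + x.1.2 * x.2.2) (by fun_prop)
    obtain ⟨T, k1, -, k2⟩ := HM.exists_of_param
      (g := fun W z => 𝓔.glue a (fnC (v W z)) (μ W z)) (𝓔.mem j) h3
      P218MP.contDiff_pol.contDiffAt (P218MP.jac_pol_ne p)
      (h6.congr' ((Ends.ev_w0 hp).mono fun q hq W z hz => Ends.glue_Y (per W z hz j) hq))
    refine ⟨_, k2, (k1.eventually h2).mono fun y hy => ?_⟩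
    simp [hy, hv.zero]

variable {S : Set E3} {w : E3 → ℝ} {δ C : ℝ} {κ β Λ : Type} [Fintype κ] [CompactSpace M]
  [MeasurableSpace M] [BorelSpace M] {m : Model S w δ C ι κ M} {ε : ι ⊕ κ → Bool} {a K ρ : ℝ}
  {al : (ι → ℝ) → Pt ι τ → ι → ℂ}

lemma hv_of_red {X : Type} [NormedAddCommGroup X] [NormedSpace ℂ X] {G : ℝ → ℂ → ℂ}
    {x : (ι → ℝ) → Pt ι τ → X} {xb : Pt ι τ → X} (h : Red G K ρ c al x xb) (h0 : xb 0 = 0) :
    HV c x xb := ⟨h.hb, h.lpx, h0⟩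

/-- the glued functions of the solutions -/
theorem pack_glue {X : Type} [NormedAddCommGroup X] [NormedSpace ℂ X]
    {x : (ι → ℝ) → Pt ι τ → VC 𝒞 × X} {xb : Pt ι τ → VC 𝒞 × X} (P : Pack m ε 𝒞 a K)
    (ha : m.w0 < a) (h : Red GG K ρ c al x xb) (hρ : 2 * ρ ≤ P.r) (hw : a ^ 2 ≤ c.w1)
    (h0 : xb 0 = 0) (hr : ∀ W y, c.Ok W (ofReal y) → (x W (ofReal y)).1.im = 0) (b : ℝ) :
    ∀ y ∈ coreK m.φ b, ∃ Ub : Pt ι τ → M → ℂ, HM c y
      (fun W z => (ends m).glue a (fnC (x W z).1) (P.OW W (al W z) (x W z).1)) Ub ∧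
        Ub 0 =ᶠ[𝓝 y] 0 :=
  hm_glue (𝓔 := ends m) ha ((hv_of_red h h0).clm (ContinuousLinearMap.fst ℂ _ _))
    (fun W z _ j => P218HC.per_OW P _ _ _ j)
    fun j p hp _ => P218HC.hg_OW P h hρ hw h0 hr j (by linarith)

variable [Fintype Λ] {x : (ι → ℝ) → Pt ι τ → XX 𝒞 (ι × Fin 2) Λ}
  {xb : Pt ι τ → XX 𝒞 (ι × Fin 2) Λ}

lemma hv_tilt {G : ℝ → ℂ → ℂ} (h : Red G K ρ c al x xb) (h0 : xb 0 = 0) :
    HV c (fun W z => (x W z).2.1) fun z => (xb z).2.1 :=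
  (hv_of_red h h0).clm ((ContinuousLinearMap.fst ℂ _ _).comp (ContinuousLinearMap.snd ℂ _ _))

/-- **The field `core` of the hub.** -/
theorem pack_core {sd : ℝ} (P : Pack m ε 𝒞 a K) (hsd : m.w0 + 1 < sd) (ha : m.w0 < a)
    (h : Red GG K ρ c al x xb) (hρ : 2 * ρ ≤ P.r) (hw : a ^ 2 ≤ c.w1) (h0 : xb 0 = 0)
    (hr : ∀ W y, c.Ok W (ofReal y) → (x W (ofReal y)).1.im = 0) (b : ℝ) :
    ∀ y ∈ coreK m.φ b, ∃ c' : Cst, c'.Le c ∧ CoreHF m c' (fun W z => surf m ε sd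
      ((ends m).glue a (fnC (x W z).1) (P.OW W (al W z) (x W z).1)) (x W z).2.1) y :=
  core_of hsd ha ((hv_of_red h h0).clm (ContinuousLinearMap.fst ℂ _ _)) (hv_tilt h h0)
    (fun W z _ j => P218HC.per_OW P _ _ _ j)
    fun j p hp _ => P218HC.hg_OW P h hρ hw h0 hr j (by linarith)

lemma core_mono {X : (ι → ℝ) → Pt ι τ → M → C3} {y : M} {c₂ : Cst} (hc : c₂.Le c)
    (h : ∃ c' : Cst, c'.Le c ∧ CoreHF m c' X y) : ∃ c' : Cst, c'.Le c₂ ∧ CoreHF m c' X y := by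
  obtain ⟨c', h1, e, he, T, q, h2, h3, h4, h5, U, hU, gb, h6, h7⟩ := h
  obtain ⟨c'', k1, k2⟩ := (h1.ev.and hc.ev).exists
  exact ⟨c'', k2, e, he, T, q, h2, h3, h4, h5, U, hU, gb, h6.mono k1 Subset.rfl, h7⟩

/-- the fields of the hub which describe the axes -/
structure RotHub (m : Model S w δ C ι κ M) (c : Cst)
    (R : (ι → ℝ) → Pt ι τ → ι → Matrix (Fin 3) (Fin 3) ℂ)
    (Rb : Pt ι τ → ι → Matrix (Fin 3) (Fin 3) ℂ) : Prop where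
  orth : ∀ W z, c.Ok W z → ∀ i, (R W z i)ᵀ * R W z i = 1
  R_hb : P218HB.HB c univ (fun W z (a : ι × Fin 3 × Fin 3) => R W z a.1 a.2.1 a.2.2)
    fun z a => Rb z a.1 a.2.1 a.2.2
  R_lp : Lp c univ fun W z (a : ι × Fin 3 × Fin 3) => R W z a.1 a.2.1 a.2.2
  R_zero : ∀ i, Rb 0 i = mat (m.Q i)
  R_real : ∀ W x, c.Ok W (ofReal x) → ∀ i a b, (R W (ofReal x) i a b).im = 0

lemma RotHub.mono {R : (ι → ℝ) → Pt ι τ → ι → Matrix (Fin 3) (Fin 3) ℂ}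
    {Rb : Pt ι τ → ι → Matrix (Fin 3) (Fin 3) ℂ} (h : RotHub m c R Rb) {c' : Cst} (hc : c'.Le c) :
    RotHub m c' R Rb :=
  ⟨fun W z hz => h.orth W z (hc.ok hz), h.R_hb.mono hc Subset.rfl, h.R_lp.mono hc Subset.rfl,
    h.R_zero, fun W x hx => h.R_real W x (hc.ok hx)⟩

/-- **The fields `orth`, `R_hb`, `R_lp`, `R_zero`, `R_real` of the hub.** -/
theorem rotHub {G : ℝ → ℂ → ℂ} (h : Red G K ρ c al x xb) (hρ : ρ ≤ 1 / 4) (h0 : xb 0 = 0)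
    (hr : ∀ W y, c.Ok W (ofReal y) → star (x W (ofReal y)).2 = (x W (ofReal y)).2) :
    RotHub m c (fun W z i => rotM m (.inl i) (x W z).2.1)
      fun z i => rotM m (.inl i) (xb z).2.1 := by
  have k : ∀ u : XX 𝒞 (ι × Fin 2) Λ, ‖u‖ < ρ → ‖u.2.1‖ < 1 / 4 := fun u hu =>
    ((norm_fst_le u.2).trans (norm_snd_le u)).trans_lt (hu.trans_le hρ)
  have h1 := fun W z hz => k _ (h.mem W z hz).2
  exact ⟨fun W z hz i => P218GC.rotM_orth m _ ((h1 W z hz).trans (by norm_num)),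
    rot_hb (hv_tilt h h0).hb h1 fun z hz => k _ (h.memb z hz), rot_lp (hv_tilt h h0).lp h1,
    fun i => by rw [h0]; exact rot_zero i,
    fun W y hy i => rot_real i (congrArg Prod.fst (hr W y hy))⟩

end Vale.Agent.P218CP
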