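import Vale.Agent.P218HB.Man
import Vale.Agent.P218ST.Hub
import Vale.Agent.P218CO.JH
import Vale.Agent.P218OP.Phi
import Vale.Agent.P218GC.Ends
import Vale.Agent.P218CN.Box

/-! # The surfaces form a holomorphic family on the core; the rotations of the ends -/

open Set Filter Metric Topology Complex
open scoped ContDiff Matrix

noncomputable section

set_option linter.unusedSectionVars false
set_option linter.unusedVariables false
set_option maxSynthPendingDepth 3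

namespace Vale.Agent.P218CP

open Vale.Agent.P218CO Vale.Agent.P218VA Vale.Agent.P218MP Vale.Agent.P272.K.LIN
open Vale.Agent.P218HB (Cst Lp HF HG HM)
open Vale.Agent.P218SQ (Pt ofReal)
open Vale.Agent.P218GA (E3 Model cx mat)
open Vale.Agent.P218ST (CoreHF strip)
open Vale.Agent.P218EN (WA)

variable {ι τ M : Type} [Fintype ι] [Fintype τ] [TopologicalSpace M] [ChartedSpace E2 M]
  [T2Space M] [RSm E2 M] {𝒞 : Cov E2 M} {c : Cst}

/-- a holomorphic family of vectors, Lipschitz in the cuts, with limit through the origin -/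
structure HV (c : Cst) {V : Type} [NormedAddCommGroup V] [NormedSpace ℂ V]
    (v : (ι → ℝ) → Pt ι τ → V) (vb : Pt ι τ → V) : Prop where
  hb : P218HB.HB c (univ : Set Unit) (fun W z _ => v W z) fun z _ => vb z
  lp : Lp c (univ : Set Unit) fun W z _ => v W z
  zero : vb 0 = 0

section
variable {V V' : Type} [NormedAddCommGroup V] [NormedSpace ℂ V] [NormedAddCommGroup V']
  [NormedSpace ℂ V'] {v : (ι → ℝ) → Pt ι τ → V} {vb : Pt ι τ → V}

lemma HV.clm (h : HV c v vb) (A : V →L[ℂ] V') :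
    HV c (fun W z => A (v W z)) fun z => A (vb z) :=
  ⟨h.hb.clm A, h.lp.clm A, by rw [h.zero, map_zero]⟩

lemma HV.mono (h : HV c v vb) {c' : Cst} (hc : c'.Le c) : HV c' v vb :=
  ⟨h.hb.mono hc Subset.rfl, h.lp.mono hc Subset.rfl, h.zero⟩

lemma HV.small (h : HV c v vb) {ε : ℝ} (hε : 0 < ε) : ∀ᶠ c' in c.sm,
    (∀ W z, c'.Ok W z → ‖v W z‖ < ε) ∧ ∀ z ∈ ball (0 : Pt ι τ) c'.r, ‖vb z‖ < ε :=
  (h.hb.near hε).mono fun c' h1 => by
    simp only [h.zero, sub_zero] at h1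
    exact ⟨fun W z hz => h1.1 W z hz () trivial, fun z hz => h1.2 z hz () trivial⟩

/-- functions whose jets are bounded linear functions of a holomorphic family -/
lemma hf_of_clm {D G : Type} [NormedAddCommGroup D] [NormedSpace ℝ D] [NormedAddCommGroup G]
    [NormedSpace ℂ G] {d1 d2 : D} {U : Set D} {f : V → D → G} {A : D → V →L[ℂ] J2 G} {K : ℝ}
    {T : Set V} (hb : P218HB.HB c (univ : Set Unit) (fun W z _ => v W z) fun z _ => vb z)
    (lp : Lp c (univ : Set Unit) fun W z _ => v W z) (h1 : ∀ W z, c.Ok W z → v W z ∈ T)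
    (h2 : ∀ z ∈ ball (0 : Pt ι τ) c.r, vb z ∈ T) (hA : ∀ y ∈ U, ‖A y‖ ≤ K)
    (hf : ∀ u ∈ T, ∀ y ∈ U, ContDiffAt ℝ 2 (f u) y ∧ cj d1 d2 (f u) y = A y u) :
    HF c d1 d2 U (fun W z => f (v W z)) fun z => f (vb z) :=
  have hm : MapsTo (fun _ : D => ()) U univ := fun _ _ => trivial
  ⟨fun W z hz y hy => (hf _ (h1 W z hz) y hy).1, fun z hz y hy => (hf _ (h2 z hz) y hy).1,
    ((hb.pre hm).map hA).congr (fun W z hz y hy => (hf _ (h1 W z hz) y hy).2)
      fun z hz y hy => (hf _ (h2 z hz) y hy).2,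
    (((lp.pre hm).map hA).clm (ContinuousLinearMap.fst ℂ _ _)).congr fun W z hz y hy =>
      congrArg Prod.fst (hf _ (h1 W z hz) y hy).2⟩

end

variable (𝒞) in
/-- the jet in a chart as a linear function -/
def jA (e : OpenPartialHomeomorph M E2) (y : E2) : VC 𝒞 →L[ℂ] J2 ℂ :=
  (RC 𝒞 e y).comp ((evalK ℂ (e.symm y)).comp JH)

lemma jA_apply {e : OpenPartialHomeomorph M E2} (he : e ∈ atlas E2 M) {y : E2}
    (hy : y ∈ e.target) (u : VC 𝒞) : cj u1 u2 (cX e (fnC u)) y = jA 𝒞 e y u :=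
  (RC_JH he hy u).symm

lemma exists_jA {e : OpenPartialHomeomorph M E2} (he : e ∈ atlas E2 M) {y : E2}
    (hy : y ∈ e.target) : ∃ K, ∀ᶠ y' in 𝓝 y, ‖jA 𝒞 e y'‖ ≤ K := by
  obtain ⟨T, hT⟩ : ∃ T : E2 → JV 𝒞 →L[ℝ] J2 ℂ,
      T = fun y => (jmap ofRealCLM).comp (toJ2.comp (recL 𝒞 e y)) := ⟨_, rfl⟩
  have h1 : ContDiffAt ℝ 1 T y := by
    rw [hT]
    exact contDiffAt_const.clm_comp (contDiffAt_const.clm_comp (contDiffAt_recL he hy))
  refine ⟨2 * (‖T y‖ + 1) * (1 * ‖(JH : VC 𝒞 →L[ℂ] Hw 𝒞 (Cx (JV 𝒞)))‖), ?_⟩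
  filter_upwards [h1.continuousAt.norm.eventually_le_const (lt_add_one _)] with y' h2
  have h3 : ‖RC 𝒞 e y'‖ ≤ 2 * (‖T y‖ + 1) := by
    have h4 : RC 𝒞 e y' = Cx.lift (T y') := by rw [hT]; rfl
    rw [h4]
    exact (Cx.norm_lift_le (T y')).trans (by linarith)
  exact (ContinuousLinearMap.opNorm_comp_le _ _).trans (mul_le_mul h3
    ((ContinuousLinearMap.opNorm_comp_le _ _).trans
      (mul_le_mul_of_nonneg_right (norm_evalK_le _) (norm_nonneg _))) (norm_nonneg _)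
    (by positivity))

/-- **Families in the space of `C^{2,1/2}` functions.** -/
theorem hm_fnC {v : (ι → ℝ) → Pt ι τ → VC 𝒞} {vb : Pt ι τ → VC 𝒞}
    (hb : P218HB.HB c (univ : Set Unit) (fun W z _ => v W z) fun z _ => vb z)
    (lp : Lp c (univ : Set Unit) fun W z _ => v W z) (x : M) :
    HM c x (fun W z => fnC (v W z)) fun z => fnC (vb z) := by
  intro e he hx
  have hy := e.map_source hx
  obtain ⟨K, hK⟩ := exists_jA (𝒞 := 𝒞) he hy
  have h2 : {y | y ∈ e.target ∧ ‖jA 𝒞 e y‖ ≤ K} ∈ 𝓝 (e x) :=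
    Eventually.and (e.open_target.mem_nhds hy) hK
  exact HF.hg (hf_of_clm (T := univ) (f := fun u => cX e (fnC u)) (A := jA 𝒞 e) (K := K) hb lp
    (fun _ _ _ => trivial) (fun _ _ => trivial) (fun y hy => hy.2)
    fun u _ y hy => ⟨(fnC_ck u).at_target he hy.1, jA_apply he hy.1 u⟩) Cst.Le.rfl h2

/-- **The solutions on a conical end.** -/
theorem hg_cone {V : Type} [NormedAddCommGroup V] [NormedSpace ℂ V] {o : EndOp} {s δ C : ℝ}
    {RV : Set V} {jv : V → ℝ × ℝ → T3 ℂ} {J : V → Fin 6 → WA}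
    (h : P218CN.ConeFam o s δ C RV jv J) (hC : 0 ≤ C) {v : (ι → ℝ) → Pt ι τ → V}
    {vb : Pt ι τ → V} (hv : HV c v vb) {p : ℝ × ℝ} (hp : s < p.1) :
    HG c (1, 0) (0, 1) p (fun W z => P218CN.j0 (J (v W z))) fun z => P218CN.j0 (J (vb z)) := by
  have hδ := h.pos
  have e : 2 * (δ / 2) = δ := by ring
  have hs : ball (0 : V) (δ / 2) ⊆ ball 0 δ := ball_subset_ball (by linarith)
  filter_upwards [hv.small (half_pos hδ), c.ev_le] with c' ⟨h1, h2⟩ hc
  have h3 := hv.mono hc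
  have k1 : ∀ W z, c'.Ok W z → v W z ∈ ball (0 : V) (δ / 2) := fun W z hz =>
    mem_ball_zero_iff.2 (h1 W z hz)
  have k2 : ∀ z ∈ ball (0 : Pt ι τ) c'.r, vb z ∈ ball (0 : V) (δ / 2) := fun z hz =>
    mem_ball_zero_iff.2 (h2 z hz)
  refine ⟨{q | s < q.1}, (isOpen_lt continuous_const continuous_fst).mem_nhds hp,
    hf_of_clm (T := {K | P218CN.IsJet s K}) (f := P218CN.j0) (A := P218CN.jetL) (K := 1)
      (h3.hb.comp (half_pos hδ) (M := C * δ) (e.symm ▸ h.holo)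
        (fun u hu => h.norm_le hC (e ▸ hu)) (fun W z hz _ _ => k1 W z hz) fun z hz _ _ => k2 z hz)
      (h3.lp.comp (half_pos hδ) (M := C * δ) (e.symm ▸ h.holo)
        (fun u hu => h.norm_le hC (e ▸ hu)) fun W z hz _ _ => k1 W z hz)
      (fun W z hz => h.jet _ (hs (k1 W z hz))) (fun z hz => h.jet _ (hs (k2 z hz)))
      (fun q hq => ContinuousLinearMap.opNorm_le_bound _ zero_le_one fun K => by
        rw [one_mul]; exact P218CN.norm_jetL_le K (h.one_le.trans (le_of_lt hq)))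
      fun K hK q hq => ⟨hK.contDiffAt h.one_le hq, hK.pj_eq_jetL h.one_le hq⟩⟩

/-- **The solutions on a cylindrical end**, given by `u0 + σ μ = u`. -/
theorem hg_cyl {c' : Cst} (hc : c'.Le c) {a L σ : ℝ} (hσ : σ * σ = 1)
    {u μ : (ι → ℝ) → Pt ι τ → ℝ × ℝ → ℂ} {ub : Pt ι τ → ℝ × ℝ → ℂ} {u0 : ℝ × ℝ → ℂ}
    (h : HF c' (1, 0) (0, 1) (strip a L) u ub) (h0 : ∀ q ∈ strip a L, ub 0 q = u0 q) (i : ι)
    (hμ : ∀ W z, c.Ok W z → ∀ q : ℝ × ℝ, q.1 ∈ Icc a (W i) → u0 q + σ * μ W z q = u W z q)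
    {p : ℝ × ℝ} (hp : p ∈ strip a L) :
    ∃ μb, HG c (1, 0) (0, 1) p μ μb ∧ ∀ᶠ q in 𝓝 p, μb 0 q = 0 := by
  have hs : strip a L ∈ 𝓝 p := ((isOpen_lt continuous_const continuous_fst).inter
    (isOpen_lt continuous_fst continuous_const)).mem_nhds hp
  have h1 := h.hg hc hs
  have h2 := h1.comp₂ h1.cdb (Θ := fun x : ℂ × ℂ => (σ : ℂ) * (x.2 - x.1)) (by fun_prop)
  refine ⟨_, h2.congr ?_ (.of_forall fun _ => .of_forall fun _ _ _ => rfl), .of_forall fun q => ?_⟩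
  · filter_upwards [c.ev_le, c.ev_w1 L] with c'' h3 h4
    filter_upwards [hs] with q hq W z hz
    have h5 : (σ : ℂ) * σ = 1 := by exact_mod_cast hσ
    rw [h0 q hq, ← hμ W z (h3.ok hz) q ⟨hq.1.le, hq.2.le.trans (h4.trans (hz.1 i).1)⟩]
    linear_combination (-μ W z q) * h5
  · simp

variable {S : Set E3} {w : E3 → ℝ} {δ C : ℝ} {κ : Type} [Fintype κ] [CompactSpace M]
  [MeasurableSpace M] [BorelSpace M] {m : Model S w δ C ι κ M} {ε : ι ⊕ κ → Bool}

lemma coreHF_of_hg {X : (ι → ℝ) → Pt ι τ → M → C3} {e : OpenPartialHomeomorph M E2}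
    (he : e ∈ atlas E2 M) {T : ℝ × ℝ → E2} {y : ℝ × ℝ} (hT : ContDiffAt ℝ 2 T y)
    (hj : jac (1, 0) (0, 1) T y ≠ 0) (hy : T y ∈ e.target) {gb : Pt ι τ → ℝ × ℝ → C3}
    (h : HG c (1, 0) (0, 1) y (fun W z q => X W z (e.symm (T q))) gb)
    (h0 : ∀ᶠ q in 𝓝 y, gb 0 q = cx (m.F (e.symm (T q)))) :
    ∃ c' : Cst, c'.Le c ∧ CoreHF m c' X (e.symm (T y)) := by
  obtain ⟨c', h1, U, hU, -, h2⟩ := h.exists_hf
  exact ⟨c', h1, e, he, T, y, hT, hj, hy, rfl, _, inter_mem hU h0, gb,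
    h2.mono Cst.Le.rfl inter_subset_left, fun q hq => hq.2⟩

/-- the surfaces in a parametrisation -/
theorem coreHF_surf {a : ℝ} (ha : m.w0 + 1 < a) {e : OpenPartialHomeomorph M E2}
    (he : e ∈ atlas E2 M) {T : ℝ × ℝ → E2} {y : ℝ × ℝ} (hT : ContDiffAt ℝ 2 T y)
    (hj : jac (1, 0) (0, 1) T y ≠ 0) (hy : T y ∈ e.target) (hx : e.symm (T y) ∈ m.reg)
    {U : (ι → ℝ) → Pt ι τ → M → ℂ} {Ub : Pt ι τ → ℝ × ℝ → ℂ}
    (hU : HG c (1, 0) (0, 1) y (fun W z q => U W z (e.symm (T q))) Ub)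
    (h0 : ∀ᶠ q in 𝓝 y, Ub 0 q = 0) {B : (ι → ℝ) → Pt ι τ → ι × Fin 2 → ℂ}
    {Bb : Pt ι τ → ι × Fin 2 → ℂ} (hB : HV c B Bb) :
    ∃ c' : Cst, c'.Le c ∧ CoreHF m c' (fun W z => surf m ε a (U W z) (B W z)) (e.symm (T y)) := by
  have h1 : ContDiffAt ℝ 2 (fun q => P218OP.coef m ε a (e.symm (T q))) y :=
    ContDiffAt.comp (g := cX e (P218OP.coef m ε a)) y
      (((P218OP.ckAt_coef ha hx).of_le P218VA.two_le_inf).at_target he hy) hT
  have h2 := (hU.prod (HG.param hB.hb hB.lp (mem_univ ()))).comp₂ h1 (Θ := P218OP.Th)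
    (P218OP.Ok.cd_Th (by
      rw [h0.self_of_nhds, hB.zero]; exact P218OP.ok_coef hx (by simp) (by simp)))
  have h3 : ∀ᶠ q in 𝓝 y, e.symm (T q) ∈ m.reg :=
    (ContinuousAt.comp (g := e.symm) (e.symm.continuousAt hy) hT.continuousAt).eventually
      ((Ends.isOpen_reg (𝓔 := ends m)).mem_nhds hx)
  refine coreHF_of_hg he hT hj hy
    (h2.congr' (h3.mono fun q hq W z _ => P218OP.Phi_eq hq)) ?_
  filter_upwards [h0, h3] with q h4 h5
  simp only [h4, hB.zero, P218OP.Th, P218OP.om_zero, P218OP.X0_zero h5]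
  simp [P218OP.rot]

/-- the standard coordinates of the plane -/
def pl (q : ℝ × ℝ) : E2 := q.1 • u1 + q.2 • u2

lemma contDiff_pl : ContDiff ℝ 2 pl := by unfold pl; fun_prop

lemma jac_pl (y : ℝ × ℝ) : jac (1, 0) (0, 1) pl y ≠ 0 := by
  have h : HasFDerivAt pl ((ContinuousLinearMap.fst ℝ ℝ ℝ).smulRight u1 +
      (ContinuousLinearMap.snd ℝ ℝ ℝ).smulRight u2) y :=
    (hasFDerivAt_fst.smul_const u1).add (hasFDerivAt_snd.smul_const u2)
  simp [jac, pd, h.fderiv, u1, u2]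

/-- **The field `core`.** -/
theorem core_of {sd a b : ℝ} (hsd : m.w0 + 1 < sd) (ha : m.w0 < a)
    {v : (ι → ℝ) → Pt ι τ → VC 𝒞} {vb : Pt ι τ → VC 𝒞} (hv : HV c v vb)
    {B : (ι → ℝ) → Pt ι τ → ι × Fin 2 → ℂ} {Bb : Pt ι τ → ι × Fin 2 → ℂ} (hB : HV c B Bb)
    {μ : (ι → ℝ) → Pt ι τ → ι ⊕ κ → ℝ × ℝ → ℂ} (per : ∀ W z, c.Ok W z → ∀ j, Per (μ W z j))
    (hμ : ∀ j (p : ℝ × ℝ), a + 3 ≤ p.1 → p.1 ≤ b → ∃ μb,
      HG c (1, 0) (0, 1) p (fun W z => μ W z j) μb ∧ ∀ᶠ q in 𝓝 p, μb 0 q = 0) :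
    ∀ x ∈ coreK m.φ b, ∃ c' : Cst, c'.Le c ∧ CoreHF m c'
      (fun W z => surf m ε sd ((ends m).glue a (fnC (v W z)) (μ W z)) (B W z)) x := by
  intro x hx
  have hr : x ∈ (ends m).reg := fun j h => by
    have h1 := hx j (h ▸ (m.φ j).map_target (Ends.zero_mem (𝓔 := ends m) j))
    rw [h, show m.φ j (((ends m).φ j).symm 0) = 0 from
      (m.φ j).right_inv (Ends.zero_mem (𝓔 := ends m) j), norm_zero] at h1
    exact absurd h1 (not_le.2 (Real.exp_pos _))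
  rcases P218OP.reg_cases hr (a + 3) with h | ⟨j, p, hp, h, rfl⟩
  · have he := chart_mem_atlas E2 x
    have hs := mem_chart_source E2 x
    set e := chartAt E2 x
    have h1 : pl (e x 0, e x 1) = e x := (E2_decomp (e x)).symm
    have h2 : e.symm (pl (e x 0, e x 1)) = x := by rw [h1, e.left_inv hs]
    have h3 : pl (e x 0, e x 1) ∈ e.target := h1.symm ▸ e.map_source hs
    have h4 : ∀ᶠ q in 𝓝 (e x 0, e x 1), e.symm (pl q) ∈ (ends m).below (a + 3) :=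
      (ContinuousAt.comp (g := e.symm) (e.symm.continuousAt h3)
        contDiff_pl.continuous.continuousAt).eventually
        ((Ends.isOpen_below (show m.w0 < a + 3 by linarith)).mem_nhds (by
          change e.symm (pl (e x 0, e x 1)) ∈ _
          rwa [h2]))
    rw [← h2]
    refine coreHF_surf hsd he contDiff_pl.contDiffAt (jac_pl _) h3 (h2.symm ▸ hr)
      (((hm_fnC hv.hb hv.lp _).pull he h3 contDiff_pl.contDiffAt).congr'
        (h4.mono fun q hq W z _ => Ends.glue_below hq)) (.of_forall fun q => ?_) hB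
    simp [hv.zero]
  · have hb : p.1 ≤ b := by
      have h1 := hx j (Ends.Y_mem (𝓔 := ends m) j hp)
      rwa [show m.φ j ((ends m).Y j p) = P218GA.pol p from Ends.φ_Y j hp, P218MP.norm_pol,
        Real.exp_le_exp, neg_le_neg_iff] at h1
    obtain ⟨μb, h1, h2⟩ := hμ j p h hb
    have h3 := Ends.pol_mem (𝓔 := ends m) j hp
    have h4 := (hm_fnC hv.hb hv.lp _).pull (d1 := ((1, 0) : ℝ × ℝ)) (d2 := (0, 1)) (m.mem j) h3
      P218MP.contDiff_pol.contDiffAt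
    have h5 : ContDiffAt ℝ 2 (fun q : ℝ × ℝ =>
        ((((1 - st (a + 5) q.1 : ℝ) : ℂ), ((st (a + 3) q.1 : ℝ) : ℂ)) : ℂ × ℂ)) p :=
      (ofRealCLM.contDiff.comp ((contDiff_st2' _).comp contDiff_fst)).contDiffAt.prodMk
        (ofRealCLM.contDiff.comp ((contDiff_st2 _).comp contDiff_fst)).contDiffAt
    have h6 := (h4.prod h1).comp₂ h5
      (Θ := fun x : (ℂ × ℂ) × ℂ × ℂ => x.1.1 * x.2.1 + x.1.2 * x.2.2) (by fun_prop)
    refine coreHF_surf hsd (m.mem j) P218MP.contDiff_pol.contDiffAt (P218MP.jac_pol_ne p) h3 hr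
      (h6.congr' ((Ends.ev_w0 hp).mono fun q hq W z hz => Ends.glue_Y (per W z hz j) hq)) ?_ hB
    filter_upwards [h2] with q hq
    simp [hq, hv.zero]

/-! ### the rotations -/

variable (m) in
/-- the entries of the rotations -/
def rotE (B : ι × Fin 2 → ℂ) (a : ι × Fin 3 × Fin 3) : ℂ := rotM m (.inl a.1) B a.2.1 a.2.2

lemma differentiableOn_rotE : DifferentiableOn ℂ (rotE m) (ball 0 1) := by
  intro B hB
  rw [mem_ball_zero_iff] at hB
  refine DifferentiableAt.differentiableWithinAt (differentiableAt_pi.2 fun ⟨i, k, l⟩ => ?_)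
  have h := P218GC.cay_den_ne ((norm_le_pi_norm B (i, 0)).trans_lt hB)
    ((norm_le_pi_norm B (i, 1)).trans_lt hB)
  have h1 : DifferentiableAt ℂ
      (fun B : ι × Fin 2 → ℂ => (1 + (B (i, 0) ^ 2 + B (i, 1) ^ 2) / 4)⁻¹) B :=
    DifferentiableAt.inv (by fun_prop) h
  have h2 : ∀ k l, DifferentiableAt ℂ (fun B : ι × Fin 2 → ℂ => skw (B (i, 0)) (B (i, 1)) k l) B :=
    fun k l => by fin_cases k <;> fin_cases l <;> simp [skw] <;> fun_prop
  simp only [rotE, rotM, Sum.elim_inl, cay, Matrix.mul_apply, Matrix.add_apply, Matrix.smul_apply,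
    smul_eq_mul]
  fun_prop

lemma exists_rotE_bd : ∃ K, ∀ B ∈ ball (0 : ι × Fin 2 → ℂ) (2 * (1 / 4)), ‖rotE m B‖ ≤ K := by
  obtain ⟨K, hK⟩ := IsCompact.exists_bound_of_continuousOn
    (isCompact_closedBall (0 : ι × Fin 2 → ℂ) (2 * (1 / 4))) ((differentiableOn_rotE (m := m)).continuousOn.mono (closedBall_subset_ball (by norm_num)))
  exact ⟨K, fun B hB => hK B (ball_subset_closedBall hB)⟩

variable {B : (ι → ℝ) → Pt ι τ → ι × Fin 2 → ℂ} {Bb : Pt ι τ → ι × Fin 2 → ℂ}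

lemma norm_proj_le (a : ι × Fin 3 × Fin 3) :
    ‖(ContinuousLinearMap.proj a : (ι × Fin 3 × Fin 3 → ℂ) →L[ℂ] ℂ)‖ ≤ 1 :=
  ContinuousLinearMap.opNorm_le_bound _ zero_le_one fun f => by
    rw [one_mul]; exact norm_le_pi_norm f a

/-- **The field `R_hb`.** -/
theorem rot_hb (hb : P218HB.HB c (univ : Set Unit) (fun W z _ => B W z) fun z _ => Bb z)
    (h1 : ∀ W z, c.Ok W z → ‖B W z‖ < 1 / 4) (h2 : ∀ z ∈ ball (0 : Pt ι τ) c.r, ‖Bb z‖ < 1 / 4) :
    P218HB.HB c univ (fun W z (a : ι × Fin 3 × Fin 3) => rotM m (.inl a.1) (B W z) a.2.1 a.2.2)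
      fun z a => rotM m (.inl a.1) (Bb z) a.2.1 a.2.2 := by
  obtain ⟨K, hK⟩ := exists_rotE_bd (m := m)
  exact ((hb.comp (by norm_num) (differentiableOn_rotE.mono (ball_subset_ball (by norm_num))) hK
    (fun W z hz _ _ => mem_ball_zero_iff.2 (h1 W z hz))
    fun z hz _ _ => mem_ball_zero_iff.2 (h2 z hz)).pre (T := fun _ => ()) fun _ _ => trivial).map
    (A := fun a => ContinuousLinearMap.proj a) fun a _ => norm_proj_le a

/-- **The field `R_lp`.** -/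
theorem rot_lp (lp : Lp c (univ : Set Unit) fun W z _ => B W z)
    (h1 : ∀ W z, c.Ok W z → ‖B W z‖ < 1 / 4) :
    Lp c univ fun W z (a : ι × Fin 3 × Fin 3) => rotM m (.inl a.1) (B W z) a.2.1 a.2.2 := by
  obtain ⟨K, hK⟩ := exists_rotE_bd (m := m)
  exact ((lp.comp (by norm_num) (differentiableOn_rotE.mono (ball_subset_ball (by norm_num))) hK
    fun W z hz _ _ => mem_ball_zero_iff.2 (h1 W z hz)).pre (T := fun _ => ())
    fun _ _ => trivial).map (A := fun a => ContinuousLinearMap.proj a) fun a _ => norm_proj_le a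

/-- **The field `R_zero`.** -/
theorem rot_zero (i : ι) : rotM m (.inl i) 0 = mat (m.Q i) := by
  simp [rotM, P218GC.cay_zero]

/-- **The field `R_real`.** -/
theorem rot_real (i : ι) {B : ι × Fin 2 → ℂ} (hB : star B = B) (k l : Fin 3) :
    (rotM m (.inl i) B k l).im = 0 := by
  have h : ∀ a, (starRingEnd ℂ) (B a) = B a := fun a => congrFun hB a
  have h2 : ∀ k l, (starRingEnd ℂ) (skw (B (i, 0)) (B (i, 1)) k l) = skw (B (i, 0)) (B (i, 1)) k l :=
    fun k l => by fin_cases k <;> fin_cases l <;> simp [skw, h]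
  have h3 : ∀ k l, (starRingEnd ℂ) (mat (m.Q i) k l) = mat (m.Q i) k l := fun k l => by
    simp [mat]
  rw [← conj_eq_iff_im]
  simp [rotM, cay, Matrix.mul_apply, Matrix.one_apply, h, h2, h3, map_ofNat]

end Vale.Agent.P218CP
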