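import Vale.Agent.P218CO.Map

/-! # The symbol of the system is positive -/

open Set Filter Metric Topology Complex
open scoped ContDiff

noncomputable section

set_option linter.unusedSectionVars false
set_option linter.unusedVariables false
set_option maxSynthPendingDepth 3

namespace Vale.Agent.P218CP

open Vale.Agent.P218CO Vale.Agent.P218VA Vale.Agent.P218MP Vale.Agent.P272.K.LIN

/-- the derivative at `0` has nonnegative real part, positive if the weight `c` is not zero -/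
def PD (c : ℝ) (f : ℂ → ℂ) : Prop := ∃ d : ℂ, HasDerivAt f d 0 ∧ 0 ≤ d.re ∧ (c ≠ 0 → 0 < d.re)

lemma PD.of_pos {f : ℂ → ℂ} {d : ℂ} (h : HasDerivAt f d 0) (hd : 0 < d.re) : PD 1 f :=
  ⟨d, h, hd.le, fun _ => hd⟩

lemma PD.congr {c c' : ℝ} {f : ℂ → ℂ} (hc : c = c') (h : PD c f) : PD c' f := hc ▸ h

lemma PD.mul {c : ℝ} {f : ℂ → ℂ} (hc : 0 ≤ c) (h : c ≠ 0 → PD 1 f) :
    PD c fun t => (c : ℂ) * f t := by
  rcases eq_or_ne c 0 with rfl | h0
  · refine ⟨0, ?_, le_rfl, fun h => absurd rfl h⟩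
    simpa using hasDerivAt_const (0 : ℂ) (0 : ℂ)
  · obtain ⟨d, h1, -, h2⟩ := h h0
    have h3 : 0 < ((c : ℂ) * d).re := by
      rw [re_ofReal_mul]; exact mul_pos (hc.lt_of_ne' h0) (h2 one_ne_zero)
    exact ⟨_, h1.const_mul _, h3.le, fun _ => h3⟩

lemma PD.add {c c' : ℝ} {f f' : ℂ → ℂ} (h : PD c f) (h' : PD c' f') :
    PD (c + c') fun t => f t + f' t := by
  obtain ⟨d, h1, h2, h3⟩ := h
  obtain ⟨d', h1', h2', h3'⟩ := h'
  refine ⟨d + d', h1.add h1', by rw [add_re]; linarith, fun h0 => ?_⟩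
  rw [add_re]
  rcases eq_or_ne c 0 with rfl | h4
  · have := h3' (by simpa using h0)
    linarith
  · have := h3 h4
    linarith

lemma PD.sum {ι : Type*} {s : Finset ι} {c : ι → ℝ} {f : ι → ℂ → ℂ}
    (h : ∀ i ∈ s, PD (c i) (f i)) : PD (∑ i ∈ s, c i) fun t => ∑ i ∈ s, f i t := by
  classical
  induction s using Finset.induction_on with
  | empty => exact ⟨0, by simpa using hasDerivAt_const (0 : ℂ) (0 : ℂ), le_rfl, by simp⟩
  | insert a s ha ih =>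
    simp only [Finset.sum_insert ha]
    exact (h a (Finset.mem_insert_self a s)).add
      (ih fun i hi => h i (Finset.mem_insert_of_mem hi))

/-- the jet with a Hessian of rank one -/
def sym (a b : ℝ) : J2 ℂ := (0, ((a * a : ℝ), (a * b : ℝ), (b * b : ℝ)))

lemma quad_pos {A B C a b : ℝ} (hA : 0 < A) (h : B ^ 2 < 4 * A * C) (hab : (a, b) ≠ 0) :
    0 < A * (a * a) + B * (a * b) + C * (b * b) := by
  rcases eq_or_ne b 0 with rfl | hb
  · have ha : a ≠ 0 := fun h => hab (by rw [h]; rfl)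
    have := mul_pos hA (mul_self_pos.2 ha)
    linarith
  · have h1 := mul_pos (sub_pos.2 h) (mul_self_pos.2 hb)
    have h2 : 0 < (4 * A) * (A * (a * a) + B * (a * b) + C * (b * b)) := by
      nlinarith [sq_nonneg (2 * A * a + B * b)]
    exact (pos_iff_pos_of_mul_pos h2).1 (by linarith)

lemma pair_sym_pos {o : EndOp} {s : ℝ} (ho : o.Good s) {p : ℝ × ℝ} (hp : s < p.1) {a b : ℝ}
    (hab : (a, b) ≠ 0) : 0 < (pair (o.a p 0) (sym a b).2).re := by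
  obtain ⟨h1, h2⟩ := ho.ell p hp
  have h3 := quad_pos h1 h2 hab
  simpa [pair, sym, ← ofReal_mul] using h3

lemma hasDerivAt_COL (o : EndOp) (s : ℝ) (p : ℝ × ℝ) (a b : ℝ) :
    HasDerivAt (fun t : ℂ => o.COL s p (t • sym a b) 0) (pair (o.a p 0) (sym a b).2) 0 := by
  have h1 : ∀ t : ℂ, o.COL s p (t • sym a b) 0 =
      o.COL s p 0 0 + t * pair (o.a p 0) (sym a b).2 := by
    intro t
    have h2 : (t • sym a b).1 = 0 := smul_zero t
    simp only [EndOp.COL, h2, Prod.fst_zero, Prod.snd_zero, u1j_zero, jcm_zero', add_zero,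
      Prod.smul_snd, pair_add, pair_smul]
    ring
  simp only [h1]
  simpa using ((hasDerivAt_id (0 : ℂ)).mul_const (pair (o.a p 0) (sym a b).2)).const_add
    (o.COL s p 0 0)

lemma ne_of_u {ξ : E2 →L[ℝ] ℝ} (h : ξ ≠ 0) : (ξ u1, ξ u2) ≠ 0 := by
  intro h0
  obtain ⟨h1, h2⟩ := Prod.mk_eq_zero.1 h0
  refine h (ContinuousLinearMap.ext fun z => ?_)
  rw [E2_decomp z, map_add, map_smul, map_smul, h1, h2]
  simp

lemma ne_of_pol {ξ : E2 →L[ℝ] ℝ} (h : ξ ≠ 0) {y : E2} (hy : y ≠ 0) : (-ξ y, ξ (Jr y)) ≠ 0 := by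
  intro h0
  obtain ⟨h1, h2⟩ := Prod.mk_eq_zero.1 h0
  refine h (ContinuousLinearMap.ext fun z => ?_)
  rw [← dpol_dlp hy z, dpol_apply, map_sub, map_smul, map_smul, neg_eq_zero.1 h1, h2]
  simp

variable {σ β M : Type} [TopologicalSpace M] [ChartedSpace E2 M] [T2Space M] [RSm E2 M]
  [Fintype σ] [Fintype β] {𝒞 : Cov E2 M} {e e' : OpenPartialHomeomorph M E2} {x : M}

/-- a jet of rank one stays so in every chart -/
lemma rk_change {v : M → ℝ} (hv : CkFn E2 2 v) (he : e ∈ atlas E2 M) (he' : e' ∈ atlas E2 M)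
    (hx : x ∈ e.source) (hx' : x ∈ e'.source) {ξ : E2 →L[ℝ] ℝ} (hξ : ξ ≠ 0)
    (hj : jet (fun y => v (e.symm y)) (e x) = (0, 0, ξ.smulRight ξ)) :
    ∃ ξ' : E2 →L[ℝ] ℝ, ξ' ≠ 0 ∧ jet (fun y => v (e'.symm y)) (e' x) = (0, 0, ξ'.smulRight ξ') := by
  set ξ' := ξ.comp (fderiv ℝ (fun z => e (e'.symm z)) (e' x)) with hξ'
  have h1 : jet (fun y => v (e'.symm y)) (e' x) = (0, 0, ξ'.smulRight ξ') := by
    rw [jet_change hv he he' hx hx', hj]
    refine Prod.ext rfl (Prod.ext ?_ ?_)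
    · exact ContinuousLinearMap.zero_comp _
    · refine ContinuousLinearMap.ext fun u => ContinuousLinearMap.ext fun u' => ?_
      rw [TJ, JT_snd_snd]
      simp [hξ']
  refine ⟨ξ', fun h0 => hξ (ContinuousLinearMap.ext fun u => ?_), h1⟩
  have h2 := jet_change hv he' he hx' hx
  have h3 : ((0, 0, ξ'.smulRight ξ') : Jet E2) = 0 := by
    rw [h0]
    refine Prod.ext rfl (Prod.ext rfl (ContinuousLinearMap.ext fun u => ?_))
    simp
  rw [h1, hj, h3, map_zero] at h2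
  have h4 : ξ u * ξ u = 0 := congrArg (fun j : Jet E2 => j.2.2 u u) h2
  exact mul_self_eq_zero.1 h4

lemma recL_at (he : e ∈ atlas E2 M) (hx : x ∈ e.source) (v : VR 𝒞) :
    recL 𝒞 e (e x) (JR v x) = jet (fun y => fnR v (e.symm y)) (e x) := by
  have h := recL_JR he (e.map_source hx) v
  rwa [e.left_inv hx] at h

lemma RC_rk (he : e ∈ atlas E2 M) (hx : x ∈ e.source) {v : VR 𝒞} {ξ : E2 →L[ℝ] ℝ}
    (hj : jet (fun y => fnR v (e.symm y)) (e x) = (0, 0, ξ.smulRight ξ)) :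
    RC 𝒞 e (e x) (JH (Cx.ofR v) x) = sym (ξ u1) (ξ u2) := by
  rw [JH_ofR, RC, Cx.lift_ofR]
  simp only [ContinuousLinearMap.comp_apply, recL_at he hx, hj, toJ2_apply, jmap_apply, sym]
  simp [Prod.ext_iff, mul_comm]

lemma RP_rk (he : e ∈ atlas E2 M) (hx : x ∈ e.source) {v : VR 𝒞} {ξ : E2 →L[ℝ] ℝ}
    (hj : jet (fun y => fnR v (e.symm y)) (e x) = (0, 0, ξ.smulRight ξ)) :
    RP 𝒞 e (e x) (JH (Cx.ofR v) x) = sym (-ξ (e x)) (ξ (Jr (e x))) := by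
  rw [JH_ofR, RP, Cx.lift_ofR]
  simp only [ContinuousLinearMap.comp_apply, recL_at he hx, hj, PJ_apply, jmap_apply, sym]
  simp [Prod.ext_iff, mul_comm]

lemma pu_nonneg (i : Fin 𝒞.N) (x : M) : 0 ≤ pu 𝒞 i x :=
  div_nonneg (mul_self_nonneg _) (sum_sq_pos 𝒞 x).le

lemma sum_pu (x : M) : ∑ i, pu 𝒞 i x = 1 := by
  unfold pu
  rw [← Finset.sum_div, div_self (sum_sq_pos 𝒞 x).ne']

lemma mem_of_pu {i : Fin 𝒞.N} (h : pu 𝒞 i x ≠ 0) : x ∈ (𝒞.e i).source :=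
  (𝒞.η_ne_zero (i := i) (x := x) fun h0 => h (by rw [pu, h0]; simp)).1

section cut
variable {𝓔 : Ends σ M} {j : σ} {a b : ℝ}

lemma cut_nonneg : 0 ≤ 𝓔.cut j a x := by
  by_cases h : x ∈ (𝓔.φ j).source
  · rw [Ends.cut_of_mem h]; exact (Ends.stp_mem _ _).1
  · rw [Ends.cut_of_notMem h]

lemma mem_of_cut (h : 𝓔.cut j a x ≠ 0) : x ∈ (𝓔.φ j).source := by
  by_contra h0
  exact h (Ends.cut_of_notMem h0)

lemma st_le_st (h : a + 1 ≤ b) (w : ℝ) : st b w ≤ st a w := by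
  rcases le_total w b with h1 | h1
  · rw [st_zero h1]; exact st_nonneg _ _
  · rw [st_one (h.trans h1)]; exact st_le_one _ _

lemma cut_le_cut (h : a + 1 ≤ b) : 𝓔.cut j b x ≤ 𝓔.cut j a x := by
  by_cases h0 : x ∈ (𝓔.φ j).source
  · rw [Ends.cut_of_mem h0, Ends.cut_of_mem h0]
    unfold Ends.stp
    split_ifs
    · exact le_rfl
    · exact st_le_st h _
  · rw [Ends.cut_of_notMem h0, Ends.cut_of_notMem h0]

lemma of_cut_sub (hab : a ≤ b) (h : 𝓔.cut j a x - 𝓔.cut j b x ≠ 0) :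
    x ∈ (𝓔.φ j).source ∧ 𝓔.φ j x ≠ 0 ∧ a < (lp (𝓔.φ j x)).1 := by
  have h0 : x ∈ (𝓔.φ j).source := by
    by_contra h0
    exact h (by rw [Ends.cut_of_notMem h0, Ends.cut_of_notMem h0, sub_self])
  rw [Ends.cut_of_mem h0, Ends.cut_of_mem h0] at h
  have h1 : 𝓔.φ j x ≠ 0 := fun h1 => h (by rw [h1, Ends.stp_zero, Ends.stp_zero, sub_self])
  refine ⟨h0, h1, ?_⟩
  by_contra h2
  rw [← pol_lp h1, Ends.stp_pol, Ends.stp_pol, st_zero (not_lt.1 h2),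
    st_zero ((not_lt.1 h2).trans hab), sub_self] at h
  exact h rfl

end cut

variable {c : CoreOp σ β M} {s : ℝ}

/-- **The symbol of the system is positive.** -/
theorem psi_pos (hc : c.Good s) (i : Fin 𝒞.N) (x : M) (hx : x ∈ (𝒞.e i).source) (v : VR 𝒞)
    (ξ : E2 →L[ℝ] ℝ) (hξ : ξ ≠ 0)
    (hj : jet (fun y => fnR v ((𝒞.e i).symm y)) (𝒞.e i x) = (0, 0, ξ.smulRight ξ)) :
    ∃ d : ℂ, HasDerivAt (fun t : ℂ => c.Psi 𝒞 s x (t • ((JH (Cx.ofR v) x, 0, 0) : FV 𝒞 σ β))) d 0 ∧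
      0 < d.re := by
  have hch : ∀ e ∈ atlas E2 M, x ∈ e.source → ∃ ξ' : E2 →L[ℝ] ℝ, ξ' ≠ 0 ∧
      jet (fun y => fnR v (e.symm y)) (e x) = (0, 0, ξ'.smulRight ξ') :=
    fun e he hxe => rk_change (fnR_ck v) (𝒞.mem i) he hx hxe hξ hj
  have hN : x ∈ c.𝓔.reg →
      PD 1 fun t : ℂ => c.PsiN 𝒞 x (t • ((JH (Cx.ofR v) x, 0, 0) : FV 𝒞 σ β)) := by
    intro hr
    refine PD.congr (sum_pu (𝒞 := 𝒞) x) (PD.sum fun k _ => PD.mul (pu_nonneg k x) fun hk => ?_)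
    have hk1 := mem_of_pu hk
    obtain ⟨ξ', h1, h2⟩ := hch _ (𝒞.mem k) hk1
    have h3 : DifferentiableAt ℂ (c.Nj (𝒞.e k) (𝒞.e k x)) 0 :=
      (hc.mix _ (𝒞.mem k) x hk1 hr).hol.self_of_nhds
    have h4 : HasDerivAt (fun t : ℂ => t • ((sym (ξ' u1) (ξ' u2), 0) : J2 ℂ × (β → ℂ)))
        (sym (ξ' u1) (ξ' u2), 0) 0 := by
      simpa using (hasDerivAt_id (0 : ℂ)).smul_const ((sym (ξ' u1) (ξ' u2), 0) : J2 ℂ × (β → ℂ))
    have h5 := HasFDerivAt.comp_hasDerivAt_of_eq (0 : ℂ) h3.hasFDerivAt h4 (by simp)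
    refine PD.of_pos (h5.congr_of_eventuallyEq (Eventually.of_forall fun t => ?_))
      (hc.ell _ (𝒞.mem k) x hk1 hr _ _ (ne_of_u h1))
    simp only [Function.comp, Prod.smul_mk, map_smul, RC_rk (𝒞.mem k) hk1 h2]
  have hC : ∀ j, c.𝓔.cut j (s + 2) x - c.𝓔.cut j (s + 6) x ≠ 0 →
      PD 1 fun t : ℂ => c.PsiC 𝒞 s j x (t • ((JH (Cx.ofR v) x, 0, 0) : FV 𝒞 σ β)) := by
    intro j hj
    obtain ⟨h0, h1, h2⟩ := of_cut_sub (by linarith) hj
    obtain ⟨ξ', h3, h4⟩ := hch _ (c.𝓔.mem j) h0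
    refine PD.of_pos ((hasDerivAt_COL (c.op j) s (lp (c.𝓔.φ j x)) _ _).congr_of_eventuallyEq
      (Eventually.of_forall fun t => ?_))
      (pair_sym_pos (hc.ops j) (by linarith) (ne_of_pol h3 h1))
    simp only [CoreOp.PsiC, Prod.smul_mk, map_smul, RP_rk (c.𝓔.mem j) h0 h4, smul_zero,
      Pi.zero_apply]
  have hL : ∀ j, c.𝓔.cut j (s + 6) x ≠ 0 →
      PD 1 fun t : ℂ => c.PsiL 𝒞 j x (t • ((JH (Cx.ofR v) x, 0, 0) : FV 𝒞 σ β)) := by
    intro j hj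
    have h0 := mem_of_cut hj
    obtain ⟨ξ', h3, h4⟩ := hch _ (c.𝓔.mem j) h0
    have h5 := quad_pos (B := 0) (C := 1) one_pos (by norm_num) (ne_of_u h3)
    refine PD.of_pos (d := ((ξ' u1 * ξ' u1 + ξ' u2 * ξ' u2 : ℝ) : ℂ)) ?_
      (by rw [ofReal_re]; linarith)
    have h6 := (hasDerivAt_id (0 : ℂ)).mul_const ((ξ' u1 * ξ' u1 + ξ' u2 * ξ' u2 : ℝ) : ℂ)
    rw [one_mul] at h6
    refine h6.congr_of_eventuallyEq (Eventually.of_forall fun t => ?_)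
    simp only [CoreOp.PsiL, Prod.smul_mk, map_smul, RC_rk (c.𝓔.mem j) h0 h4, sym, smul_eq_mul, id]
    push_cast
    ring
  have h1 := (PD.mul (Ends.core_mem (𝓔 := c.𝓔) (s + 2) x).1 fun h =>
      hN (Ends.below_reg (Ends.below_of_core_ne h))).add
    (PD.sum (s := Finset.univ) fun j _ =>
      (PD.mul (sub_nonneg.2 (cut_le_cut (by linarith))) (hC j)).add (PD.mul cut_nonneg (hL j)))
  obtain ⟨d, h2, -, h3⟩ := h1
  refine ⟨d, h2, h3 ?_⟩
  simp [Ends.core]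

end Vale.Agent.P218CP
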